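import Vale.Agent.P039.Squares

/-!
# A connected cubic graph covered by disjoint four-cycles is Hamiltonian
-/

open SimpleGraph

namespace Vale.Agent.Results.P039.SquareClassHamiltonian

open Vale.Agent.P039

/-- Barnette's conjecture when one face class consists of quadrilaterals: a connected cubic
graph whose vertices split into disjoint four-cycles has a Hamiltonian cycle. -/
theorem result : ∀ {V : Type} [Fintype V] [DecidableEq V] (G : SimpleGraph V),
    G.Connected → (∀ v, (G.neighborSet v).ncard = 3) →
    (∃ r : V → V, (∀ v, G.Adj v (r v)) ∧ (∀ v, r (r (r (r v))) = v) ∧ ∀ v, r (r v) ≠ v) →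
    ∃ (a : V) (p : G.Walk a a), p.IsHamiltonianCycle := by
  intro V _ _ G hconn hdeg ⟨r, h1, h2, h3⟩
  have h : SquareCover r G := ⟨h1, h2, h3⟩
  obtain ⟨m, ho⟩ := exists_outer h hdeg
  obtain ⟨s, hc, hs⟩ := exists_connected h ho hconn
  obtain ⟨a⟩ := hconn.nonempty
  have hne : ((joined s m).neighborSet a).Nonempty := by
    rw [neighborSet_joined h ho hc]; exact Set.insert_nonempty _ _
  obtain ⟨p, hp, hv⟩ := (joined_isCycles h ho hc).exists_cycle_toSubgraph_verts_eq_connectedComponentSupp
    (c := (joined s m).connectedComponentMk a) ConnectedComponent.connectedComponentMk_mem hne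
  have hle := joined_le h ho hc
  refine ⟨a, p.mapLe hle, ?_⟩
  rw [Walk.isHamiltonianCycle_iff_isCycle_and_support_count_tail_eq_one]
  refine ⟨hp.mapLe hle, fun b => ?_⟩
  rw [Walk.support_mapLe_eq_support]
  refine List.count_eq_one_of_mem hp.support_nodup ?_
  have hb : b ∈ p.toSubgraph.verts := by
    rw [hv, ConnectedComponent.mem_supp_iff, ConnectedComponent.eq]
    exact hs b a
  rw [Walk.mem_verts_toSubgraph, Walk.support_eq_cons, List.mem_cons] at hb
  exact hb.elim (fun e => e ▸ Walk.end_mem_tail_support hp.not_nil) id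

end Vale.Agent.Results.P039.SquareClassHamiltonian
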